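import Vale.Agent.P167.SG.Bar

/-!
# P167, general `q`, SAND: the barrier for a rough target

`Yb2`: the boundary, inside the disc, of `Rr σ ε₁ η 1` (the collar is removed over the pushed in side
and over neighbourhoods of both marks); both ends are on the pushed out side. `Sit.sep2`: connected
subsets of `D` in the closed polygon stay in the image of the larger domain.
-/

set_option autoImplicit false

namespace Vale.Agent.P167.SG

open Set Metric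
open Vale.Agent.P153.R2.R1 (Conf dinv)

variable {σ ε ε' ε₁ η ρ : ℝ} {w w' : ℂ}

/-- The small upper arc on the right. -/
noncomputable def a3 (σ ρ y : ℝ) : ℂ := ⟨√(ρ ^ 2 - y ^ 2), σ * y⟩

/-- The barrier with both ends on the pushed out side. -/
noncomputable def Yb2 (σ ρ η : ℝ) : Set ℂ :=
  (((a1 σ ρ '' Icc (-ρ) ρ) ∪ (a2 σ ρ '' Icc 0 (η * ρ))) ∪ (a3 σ ρ '' Icc 0 (η * ρ))) ∪
    (((fun t : ℝ => (t : ℂ) * a2 σ 1 η) '' Ico ρ 1) ∪ ((fun t : ℝ => (t : ℂ) * a3 σ 1 η) '' Ico ρ 1))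

theorem cont_a3 : Continuous (a3 σ ρ) := by
  have : a3 σ ρ = fun y : ℝ => ((√(ρ ^ 2 - y ^ 2) : ℝ) : ℂ) + ((σ * y : ℝ) : ℂ) * Complex.I := by
    funext x
    apply Complex.ext <;> simp [a3]
  rw [this]
  fun_prop

theorem a3_smul (hρ : 0 ≤ ρ) (y : ℝ) : a3 σ ρ (y * ρ) = (ρ : ℂ) * a3 σ 1 y := by
  have h : √(ρ ^ 2 - (y * ρ) ^ 2) = ρ * √(1 ^ 2 - y ^ 2) := by
    have : ρ ^ 2 - (y * ρ) ^ 2 = ρ ^ 2 * (1 ^ 2 - y ^ 2) := by ring
    rw [this, Real.sqrt_mul (by positivity), Real.sqrt_sq hρ]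
  apply Complex.ext
  · simp only [a3, Complex.mul_re, Complex.ofReal_re, Complex.ofReal_im, zero_mul, sub_zero]
    rw [h]
  · simp [a3]; ring

theorem norm_a3 (hσ : |σ| = 1) (hρ : 0 ≤ ρ) {x : ℝ} (hx : |x| ≤ ρ) : ‖a3 σ ρ x‖ = ρ := by
  have hσ2 : σ ^ 2 = 1 := by rw [← sq_abs, hσ]; norm_num
  have h0 : 0 ≤ ρ ^ 2 - x ^ 2 := by
    have := sq_le_sq' (by linarith [neg_abs_le x, hx]) (le_of_abs_le hx)
    linarith
  rw [← Real.sqrt_sq (norm_nonneg (a3 σ ρ x)), ← Complex.normSq_eq_norm_sq, Complex.normSq_apply]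
  have : (a3 σ ρ x).re * (a3 σ ρ x).re + (a3 σ ρ x).im * (a3 σ ρ x).im = ρ ^ 2 := by
    simp only [a3]
    have := Real.sq_sqrt h0
    nlinarith
  rw [this, Real.sqrt_sq hρ]

theorem conn_Yb2 (hρ : 0 ≤ ρ) (hρ1 : ρ < 1) (hη : 0 ≤ η) : IsPreconnected (Yb2 σ ρ η) := by
  have c1 : IsPreconnected (a1 σ ρ '' Icc (-ρ) ρ) :=
    isPreconnected_Icc.image _ cont_a1.continuousOn
  have c2 : IsPreconnected (a2 σ ρ '' Icc 0 (η * ρ)) :=
    isPreconnected_Icc.image _ cont_a2.continuousOn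
  have c3 : IsPreconnected (a3 σ ρ '' Icc 0 (η * ρ)) :=
    isPreconnected_Icc.image _ cont_a3.continuousOn
  have c4 : IsPreconnected ((fun t : ℝ => (t : ℂ) * a2 σ 1 η) '' Ico ρ 1) :=
    isPreconnected_Ico.image _ (by fun_prop)
  have c5 : IsPreconnected ((fun t : ℝ => (t : ℂ) * a3 σ 1 η) '' Ico ρ 1) :=
    isPreconnected_Ico.image _ (by fun_prop)
  have c12 : IsPreconnected ((a1 σ ρ '' Icc (-ρ) ρ) ∪ (a2 σ ρ '' Icc 0 (η * ρ))) := by
    refine IsPreconnected.union (a1 σ ρ (-ρ)) ⟨_, ⟨le_rfl, by linarith⟩, rfl⟩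
      ⟨0, ⟨le_rfl, by positivity⟩, ?_⟩ c1 c2
    apply Complex.ext
    · simp [a1, a2, Real.sqrt_sq hρ]
    · simp [a1, a2]
  have c123 : IsPreconnected (((a1 σ ρ '' Icc (-ρ) ρ) ∪ (a2 σ ρ '' Icc 0 (η * ρ))) ∪
      (a3 σ ρ '' Icc 0 (η * ρ))) := by
    refine IsPreconnected.union (a1 σ ρ ρ) (Or.inl ⟨_, ⟨by linarith, le_rfl⟩, rfl⟩)
      ⟨0, ⟨le_rfl, by positivity⟩, ?_⟩ c12 c3
    apply Complex.ext
    · simp [a1, a3, Real.sqrt_sq hρ]
    · simp [a1, a3]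
  have c1234 : IsPreconnected ((((a1 σ ρ '' Icc (-ρ) ρ) ∪ (a2 σ ρ '' Icc 0 (η * ρ))) ∪
      (a3 σ ρ '' Icc 0 (η * ρ))) ∪ ((fun t : ℝ => (t : ℂ) * a2 σ 1 η) '' Ico ρ 1)) := by
    refine IsPreconnected.union (a2 σ ρ (η * ρ))
      (Or.inl (Or.inr ⟨_, ⟨by positivity, le_rfl⟩, rfl⟩)) ⟨ρ, ⟨le_rfl, hρ1⟩, ?_⟩ c123 c4
    rw [a2_smul hρ]
  have e : Yb2 σ ρ η = ((((a1 σ ρ '' Icc (-ρ) ρ) ∪ (a2 σ ρ '' Icc 0 (η * ρ))) ∪
      (a3 σ ρ '' Icc 0 (η * ρ))) ∪ ((fun t : ℝ => (t : ℂ) * a2 σ 1 η) '' Ico ρ 1)) ∪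
        ((fun t : ℝ => (t : ℂ) * a3 σ 1 η) '' Ico ρ 1) := by
    rw [Yb2]
    simp only [union_assoc]
  rw [e]
  refine IsPreconnected.union (a3 σ ρ (η * ρ)) (Or.inl (Or.inr ⟨_, ⟨by positivity, le_rfl⟩, rfl⟩))
    ⟨ρ, ⟨le_rfl, hρ1⟩, ?_⟩ c1234 c5
  rw [a3_smul hρ]

/-- The relative boundary of the larger domain is in the barrier. -/
theorem frontier_sub2 (hσ : |σ| = 1) (hρ : 0 < 1 - ε₁) (hw : ‖w‖ < 1)
    (hf : w ∈ frontier (Rr σ ε₁ η 1)) : w ∈ Yb2 σ (1 - ε₁) η := by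
  have hσ2 : σ ^ 2 = 1 := by rw [← sq_abs, hσ]; norm_num
  have hn : w.re ^ 2 + w.im ^ 2 = ‖w‖ ^ 2 := by
    rw [← Complex.normSq_eq_norm_sq, Complex.normSq_apply]; ring
  have h1 : w ∉ Rr σ ε₁ η 1 := fun h => (disjoint_frontier_iff_isOpen.2 isOpen_rr).le_bot ⟨hf, h⟩
  have hc : w ∈ {w : ℂ | ‖w‖ ≤ 1 - ε₁ ∨ η * ‖w‖ ≤ σ * w.im} := by
    have hcl : IsClosed {w : ℂ | ‖w‖ ≤ 1 - ε₁ ∨ η * ‖w‖ ≤ σ * w.im} := by
      refine IsClosed.union (isClosed_le continuous_norm continuous_const) ?_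
      exact isClosed_le (continuous_const.mul continuous_norm)
        (continuous_const.mul Complex.continuous_im)
    refine closure_minimal ?_ hcl (frontier_subset_closure hf)
    rintro z ⟨-, h | h | h⟩
    · exact Or.inl h.le
    · exact Or.inr h.le
    · have := (le_abs_self z.re).trans (Complex.abs_re_le_norm z)
      linarith
  have h2 : ¬ ‖w‖ < 1 - ε₁ := fun h => h1 ⟨hw, Or.inl h⟩
  have h3 : ¬ η * ‖w‖ < σ * w.im := fun h => h1 ⟨hw, Or.inr (Or.inl h)⟩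
  push Not at h2 h3
  have hw0 : 0 < ‖w‖ := by linarith
  have hsi : (σ * w.im) ^ 2 = w.im ^ 2 := by rw [mul_pow, hσ2, one_mul]
  have hwi : w.im = σ * (σ * w.im) := by rw [← mul_assoc, ← sq, hσ2, one_mul]
  have habs := abs_le.1 (Complex.abs_re_le_norm w)
  rcases hc with h | h
  · -- on the circle of radius `1 - ε₁`
    have e : ‖w‖ = 1 - ε₁ := le_antisymm h h2
    left
    by_cases hs : σ * w.im ≤ 0
    · left; left
      refine ⟨w.re, ⟨by rw [← e]; exact habs.1, by rw [← e]; exact habs.2⟩, ?_⟩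
      apply Complex.ext
      · rfl
      · have h5 : √((1 - ε₁) ^ 2 - w.re ^ 2) = -(σ * w.im) := by
          rw [← e, ← hn, add_sub_cancel_left, ← hsi, Real.sqrt_sq_eq_abs, abs_of_nonpos hs]
        simp only [a1]
        rw [h5]
        linarith [hwi]
    · push Not at hs
      have h6 : √((1 - ε₁) ^ 2 - (σ * w.im) ^ 2) = |w.re| := by
        rw [← e, hsi, ← hn, add_sub_cancel_right, Real.sqrt_sq_eq_abs]
      rcases le_or_gt 0 w.re with h5 | h5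
      · right
        refine ⟨σ * w.im, ⟨hs.le, by rw [← e]; exact h3⟩, ?_⟩
        apply Complex.ext
        · simp only [a3]
          rw [h6, abs_of_nonneg h5]
        · simp only [a3]
          exact hwi.symm
      · left; right
        refine ⟨σ * w.im, ⟨hs.le, by rw [← e]; exact h3⟩, ?_⟩
        apply Complex.ext
        · simp only [a2]
          rw [h6, abs_of_neg h5, neg_neg]
        · simp only [a2]
          exact hwi.symm
  · -- the segments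
    have e : σ * w.im = η * ‖w‖ := le_antisymm h3 h
    have h6 : ‖w‖ * √(1 ^ 2 - η ^ 2) = |w.re| := by
      have h7 : w.re ^ 2 = ‖w‖ ^ 2 * (1 ^ 2 - η ^ 2) := by
        have : w.im ^ 2 = (η * ‖w‖) ^ 2 := by rw [← hsi, e]
        nlinarith
      rw [← Real.sqrt_sq hw0.le, ← Real.sqrt_mul (by positivity), ← h7, Real.sqrt_sq_eq_abs]
    right
    rcases le_or_gt 0 w.re with h5 | h5
    · right
      refine ⟨‖w‖, ⟨h2, hw⟩, ?_⟩
      apply Complex.ext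
      · simp only [a3, Complex.mul_re, Complex.ofReal_re, Complex.ofReal_im, zero_mul, sub_zero]
        rw [h6, abs_of_nonneg h5]
      · simp only [a3, Complex.mul_im, Complex.ofReal_re, Complex.ofReal_im, zero_mul, add_zero]
        rw [hwi, e]; ring
    · left
      refine ⟨‖w‖, ⟨h2, hw⟩, ?_⟩
      apply Complex.ext
      · simp only [a2, Complex.mul_re, Complex.ofReal_re, Complex.ofReal_im, zero_mul, sub_zero]
        rw [mul_neg, h6, abs_of_neg h5, neg_neg]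
      · simp only [a2, Complex.mul_im, Complex.ofReal_re, Complex.ofReal_im, zero_mul, add_zero]
        rw [hwi, e]; ring

/-- The points of the barrier. -/
theorem yb2_mem (hσ : |σ| = 1) (hρ : 0 < 1 - ε₁) (hε₁ : 0 < ε₁) (hη : 0 ≤ η) (hη1 : η ≤ 1)
    (hw : w ∈ Yb2 σ (1 - ε₁) η) : ‖w‖ < 1 ∧ 1 - ε₁ ≤ ‖w‖ ∧ σ * w.im ≤ η * ‖w‖ := by
  have hσ2 : σ ^ 2 = 1 := by rw [← sq_abs, hσ]; norm_num
  rcases hw with ((⟨x, ⟨hx0, hx2⟩, rfl⟩ | ⟨y, ⟨hy0, hy1⟩, rfl⟩) | ⟨y, ⟨hy0, hy1⟩, rfl⟩) |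
    ⟨t, ⟨ht0, ht1⟩, rfl⟩ | ⟨t, ⟨ht0, ht1⟩, rfl⟩
  · have h1 : |x| ≤ 1 - ε₁ := abs_le.2 ⟨hx0, hx2⟩
    rw [norm_a1 hσ hρ.le h1]
    refine ⟨by linarith, le_rfl, ?_⟩
    simp only [a1]
    have := Real.sqrt_nonneg ((1 - ε₁) ^ 2 - x ^ 2)
    nlinarith
  · have h1 : |y| ≤ 1 - ε₁ := by
      rw [abs_of_nonneg hy0]
      nlinarith
    rw [norm_a2 hσ hρ.le h1]
    refine ⟨by linarith, le_rfl, ?_⟩
    simp only [a2]
    nlinarith
  · have h1 : |y| ≤ 1 - ε₁ := by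
      rw [abs_of_nonneg hy0]
      nlinarith
    rw [norm_a3 hσ hρ.le h1]
    refine ⟨by linarith, le_rfl, ?_⟩
    simp only [a3]
    nlinarith
  · have ht : 0 ≤ t := hρ.le.trans ht0
    have hn : ‖(t : ℂ) * a2 σ 1 η‖ = t := by
      rw [norm_mul, Complex.norm_real, Real.norm_of_nonneg ht,
        norm_a2 hσ zero_le_one (by rwa [abs_of_nonneg hη]), mul_one]
    simp only [hn]
    refine ⟨ht1, ht0, ?_⟩
    simp only [a2, Complex.mul_im, Complex.ofReal_re, Complex.ofReal_im, zero_mul, add_zero]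
    have : σ * (t * (σ * η)) = η * t := by linear_combination (t * η) * hσ2
    rw [this]
  · have ht : 0 ≤ t := hρ.le.trans ht0
    have hn : ‖(t : ℂ) * a3 σ 1 η‖ = t := by
      rw [norm_mul, Complex.norm_real, Real.norm_of_nonneg ht,
        norm_a3 hσ zero_le_one (by rwa [abs_of_nonneg hη]), mul_one]
    simp only [hn]
    refine ⟨ht1, ht0, ?_⟩
    simp only [a3, Complex.mul_im, Complex.ofReal_re, Complex.ofReal_im, zero_mul, add_zero]
    have : σ * (t * (σ * η)) = η * t := by linear_combination (t * η) * hσ2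
    rw [this]

theorem yb2_sub (hσ : |σ| = 1) (hρ : 0 < 1 - ε₁) (hε₁ : 0 < ε₁) (hη : 0 ≤ η) (hη1 : η ≤ 1) :
    Yb2 σ (1 - ε₁) η ⊆ ball 0 1 := fun _ h =>
  mem_ball_zero_iff.2 (yb2_mem hσ hρ hε₁ hη hη1 h).1

/-- The distance of the barrier from the smaller domain. -/
theorem yb2_far {δ : ℝ} (hσ : |σ| = 1) (hρ : 0 < 1 - ε₁) (hε₁ : 0 < ε₁) (hη : 0 ≤ η) (hη1 : η ≤ 1)
    (hε' : 0 ≤ ε') (h1 : δ ≤ ε - ε₁) (h2 : δ ≤ ε' * (1 - ε) - η)
    (hw : w ∈ Yb2 σ (1 - ε₁) η) (hw' : w' ∈ Rr σ ε ε' 1) : δ ≤ dist w w' := by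
  obtain ⟨a1, a2, a3⟩ := yb2_mem hσ hρ hε₁ hη hη1 hw
  by_cases hn : ‖w'‖ < 1 - ε
  · have := norm_sub_norm_le w w'
    rw [← dist_eq_norm] at this
    linarith
  push Not at hn
  rcases hw'.2 with h | h | h
  · linarith
  · have h4 : |w.im - w'.im| ≤ dist w w' := by
      rw [dist_eq_norm, ← Complex.sub_im]; exact Complex.abs_im_le_norm _
    have h5 : σ * (w'.im - w.im) ≤ |w.im - w'.im| := by
      have := le_abs_self (σ * (w'.im - w.im))
      rw [abs_mul, hσ, one_mul, abs_sub_comm] at this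
      exact this
    have h6 : ε' * (1 - ε) ≤ ε' * ‖w'‖ := mul_le_mul_of_nonneg_left hn hε'
    have h7 : η * ‖w‖ ≤ η := by nlinarith
    have h8 : σ * (w'.im - w.im) = σ * w'.im - σ * w.im := by ring
    linarith
  · have := (le_abs_self w'.re).trans (Complex.abs_re_le_norm w')
    linarith

variable {ι : Type*} {F : ℂ → ℂ} {e ν r ℓ : ℝ} {κ : ι → Set ℂ}

/-- **Separation**: the connected set stays in the image of the larger domain, which does not contain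
the neighbourhoods of the marks and of the pushed in side. -/
theorem Sit.sep2 {xc : ℝ} (H : Sit F σ ε ε' xc e ν r ℓ κ) {ε₁ η : ℝ} (hρ : 0 < 1 - ε₁)
    {E : Set ℂ} (hE : IsPreconnected E) (hED : E ⊆ F '' ball 0 1)
    (hEY : Disjoint (F '' Yb2 σ (1 - ε₁) η) E)
    (hmeet : (E ∩ F '' Rr σ ε₁ η 1).Nonempty) : E ⊆ F '' Rr σ ε₁ η 1 := by
  have hcont : ContinuousOn (dinv F) E := fun x hx =>
    (H.conf.dinv_continuousAt (hED hx)).continuousWithinAt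
  have h1 : dinv F '' E ⊆ Rr σ ε₁ η 1 := by
    refine P153.R2.R1.subset_of_frontier isOpen_rr (hE.image _ hcont) ?_ ?_
    · obtain ⟨_, hx, w, hw, rfl⟩ := hmeet
      refine ⟨w, ⟨F w, hx, H.conf.dinv_apply (rr_sub hw)⟩, hw⟩
    · rw [disjoint_left]
      rintro _ ⟨x, hx, rfl⟩ hf
      have h2 := frontier_sub2 H.hσ hρ (mem_ball_zero_iff.1 (H.conf.dinv_mem (hED hx))) hf
      exact disjoint_left.1 hEY ⟨_, h2, H.conf.apply_dinv (hED hx)⟩ hx
  intro x hx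
  exact ⟨dinv F x, h1 ⟨x, hx, rfl⟩, H.conf.apply_dinv (hED hx)⟩

end Vale.Agent.P167.SG
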