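import Vale.Agent.P167.SG.Walk

/-!
# P167, general `q`, SAND: the position of the mark at a rough target

`Sit.walk_r`: along a chain of points of `U` next to the boundary of the polygon, which starts at height
`> τ`, whose positions are not near `- 1`, and which reaches height `≤ τ + ν`: the first such index is
near `1`, and all heights up to there are `> τ`.
-/

set_option autoImplicit false

namespace Vale.Agent.P167.SG

open Set Metric
open Vale.Agent.P153.R2.R1 (Conf dinv)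

/-- A point near the circle of small height and not on the left is near `1`. -/
theorem near_one {σ m τ x₀ : ℝ} {w : ℂ} (hσ : |σ| = 1) (hw : ‖w‖ < 1) (hm : 1 - m ≤ ‖w‖)
    (hm1 : m ≤ 1) (h0 : 0 ≤ σ * w.im) (hτ : σ * w.im ≤ τ) (hτ1 : τ ≤ 1) (hx0 : 0 ≤ x₀)
    (hx : -x₀ ≤ w.re) (hx1 : x₀ ^ 2 < (1 - m) ^ 2 - τ ^ 2) : dist w 1 ≤ 2 * m + 2 * τ := by
  have e1 : σ * w.im = (-σ) * (-w).im := by simp
  have h := near_neg_one (σ := -σ) (m := m) (τ := τ) (x₀ := x₀) (w := -w) (by rwa [abs_neg])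
    (by rwa [norm_neg]) (by rwa [norm_neg]) hm1 (by rwa [← e1]) (by rwa [← e1]) hτ1 hx0
    (by simp; linarith) hx1
  rwa [dist_neg_neg] at h

variable {ι : Type*} [Finite ι] {F : ℂ → ℂ} {σ ε ε' xc e ν r ℓ : ℝ} {κ : ι → Set ℂ}

/-- **The walk towards the target.** -/
theorem Sit.walk_r (H : Sit F σ ε ε' xc e ν r ℓ κ) {u v : ℕ → ℂ} {i₀ M : ℕ} {τ x₀ : ℝ}
    (hu : ∀ i, i₀ ≤ i → i ≤ M → u i ∈ Ug F σ ε ε' xc κ)
    (hv : ∀ i, i₀ ≤ i → i ≤ M → v i ∉ Ug F σ ε ε' xc κ)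
    (huv : ∀ i, i₀ ≤ i → i ≤ M → dist (v i) (u i) ≤ 3 * ℓ)
    (huu : ∀ i, i₀ ≤ i → i < M → dist (u i) (u (i + 1)) ≤ 12 * ℓ)
    (hτ : ε' + 4 * e + ν ≤ τ) (hstart : τ < σ * (dinv F (u i₀)).im)
    (hend : ∃ j, i₀ ≤ j ∧ j ≤ M ∧ σ * (dinv F (u j)).im ≤ τ + ν)
    (hx : ∀ i, i₀ ≤ i → i ≤ M → -x₀ ≤ (dinv F (u i)).re) (hx0 : 0 ≤ x₀) (hτ1 : τ + ν ≤ 1)
    (hm1 : e + ν ≤ 1) (hx1 : x₀ ^ 2 < (1 - (e + ν)) ^ 2 - (τ + ν) ^ 2) :
    ∃ j, i₀ ≤ j ∧ j ≤ M ∧ (∀ i, i₀ ≤ i → i ≤ j → τ < σ * (dinv F (u i)).im) ∧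
      σ * (dinv F (u j)).im ≤ τ + ν ∧ dist (dinv F (u j)) 1 ≤ 2 * (e + ν) + 2 * (τ + ν) := by
  classical
  obtain ⟨j, ⟨hj1, hj2, hj3⟩, hmin⟩ : ∃ j, (i₀ ≤ j ∧ j ≤ M ∧ σ * (dinv F (u j)).im ≤ τ + ν) ∧
      ∀ k < j, ¬ (i₀ ≤ k ∧ k ≤ M ∧ σ * (dinv F (u k)).im ≤ τ + ν) :=
    ⟨Nat.find hend, Nat.find_spec hend, fun k hk => Nat.find_min hend hk⟩
  have hν := H.hν
  have he := H.he
  have hlow : ∀ i, i₀ ≤ i → i ≤ j → τ < σ * (dinv F (u i)).im := by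
    intro i h1 h2
    rcases h2.lt_or_eq with h | rfl
    · by_contra hcon
      push Not at hcon
      exact hmin i h ⟨h1, by omega, by linarith⟩
    · rcases h1.lt_or_eq with h | rfl
      · obtain ⟨k, rfl⟩ : ∃ k, i = k + 1 := ⟨i - 1, by omega⟩
        have h3 := hmin k (by omega)
        have h4 : τ + ν < σ * (dinv F (u k)).im := by
          by_contra hcon
          push Not at hcon
          exact h3 ⟨by omega, by omega, hcon⟩
        have h5 := H.close (hu k (by omega) (by omega)) (hu (k + 1) (by omega) hj2)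
          (huu k (by omega) (by omega))
        have h6 := H.im_dist (w := dinv F (u k)) (w' := dinv F (u (k + 1)))
        linarith
      · exact hstart
  refine ⟨j, hj1, hj2, hlow, hj3, ?_⟩
  have hjl := hlow j hj1 le_rfl
  have hup := H.near_alt (hu j hj1 hj2) (hv j hj1 hj2) (huv j hj1 hj2)
  have hn : 1 - (e + ν) ≤ ‖dinv F (u j)‖ := by
    rcases hup with h | ⟨w, hw1, hw2, hw3⟩
    · linarith
    · have h1 := H.removed hw1 hw2
      have h2 := H.im_dist (w := dinv F (u j)) (w' := w)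
      linarith
  have hlt : ‖dinv F (u j)‖ < 1 :=
    mem_ball_zero_iff.1 (H.conf.dinv_mem (H.sub (hu j hj1 hj2)))
  have hε' := H.hε'
  exact near_one H.hσ hlt hn hm1 (by linarith) hj3 hτ1 hx0 (hx j hj1 hj2) hx1

end Vale.Agent.P167.SG
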